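import Vale.Agent.P150.Gauss

/-!
# P146: two identities for polynomials of independent normal variables

With `gL φ = ∑ (X φ' - φ'')`: the mean of `F * gL φ` is that of the inner product of the gradients, and
the mean of the square of `gL φ` is that of the squared Hessian plus the squared gradient.
-/

open MeasureTheory ProbabilityTheory Finset MvPolynomial

namespace Vale.Agent.P146.Proj

open P150 (std stdPi)

variable {κ : Type*} [Fintype κ]

/-- The mean of a polynomial. -/
noncomputable def pmean (P : MvPolynomial κ ℝ) : ℝ := ∫ g, MvPolynomial.eval g P ∂stdPi κ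

omit [Fintype κ] in
theorem continuous_peval (P : MvPolynomial κ ℝ) : Continuous fun g : κ → ℝ => MvPolynomial.eval g P :=
  MvPolynomial.continuous_eval P

theorem integrable_peval (P : MvPolynomial κ ℝ) :
    Integrable (fun g : κ → ℝ => MvPolynomial.eval g P) (stdPi κ) := by
  have h1 : ∀ n : ℕ, Integrable (fun x : ℝ => x ^ n) std := fun n => by
    rcases eq_or_ne n 0 with rfl | hn
    · simp
    · refine ((memLp_id_gaussianReal' (μ := 0) (v := 1) n (by simp)).integrable_norm_pow hn).mono'
        (by fun_prop) (ae_of_all _ fun x => ?_)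
      simp
  simp only [MvPolynomial.eval_eq']
  exact integrable_finsetSum _ fun d _ =>
    (Integrable.fintype_prod (f := fun i (x : ℝ) => x ^ d i) fun i => h1 (d i)).const_mul _

theorem integrable_abs_peval (P : MvPolynomial κ ℝ) :
    Integrable (fun g : κ → ℝ => |MvPolynomial.eval g P|) (stdPi κ) := (integrable_peval P).abs

/-- A function of linear growth times a polynomial is integrable. -/
theorem integrable_mul_peval {F : (κ → ℝ) → ℝ} (hF : Measurable F) {C : ℝ}
    (hb : ∀ g, |F g| ≤ C * (1 + ∑ i, |g i|)) (P : MvPolynomial κ ℝ) :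
    Integrable (fun g => F g * MvPolynomial.eval g P) (stdPi κ) := by
  refine (((integrable_abs_peval P).add (integrable_finsetSum univ fun i _ =>
    integrable_abs_peval (X i * P))).const_mul C).mono'
    (hF.aestronglyMeasurable.mul (continuous_peval P).aestronglyMeasurable) (ae_of_all _ fun g => ?_)
  simp only [Pi.add_apply, Real.norm_eq_abs, abs_mul, MvPolynomial.eval_mul, MvPolynomial.eval_X, ← sum_mul]
  refine (mul_le_mul_of_nonneg_right (hb g) (abs_nonneg _)).trans (le_of_eq ?_)
  ring

omit [Fintype κ] in
theorem hasDerivAt_peval [DecidableEq κ] (P : MvPolynomial κ ℝ) (p : κ) (g : κ → ℝ) (x : ℝ) :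
    HasDerivAt (fun y => MvPolynomial.eval (Function.update g p y) P)
      (MvPolynomial.eval (Function.update g p x) (pderiv p P)) x := by
  induction P using MvPolynomial.induction_on with
  | C a => simpa using hasDerivAt_const x a
  | add P Q hP hQ => simpa using hP.fun_add hQ
  | mul_X P i hP =>
    have hi : HasDerivAt (fun y => Function.update g p y i)
        (MvPolynomial.eval (Function.update g p x) (pderiv p (X i))) x := by
      by_cases h : i = p
      · subst h; simpa using hasDerivAt_id' x
      · simpa [h] using hasDerivAt_const x (g i)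
    simp only [MvPolynomial.eval_mul, MvPolynomial.eval_X]
    exact (hP.fun_mul hi).congr_deriv (by simp; ring)

/-- Integration by parts in one coordinate, for integrable functions. -/
theorem ibp [DecidableEq κ] (p : κ) {φ φ' : (κ → ℝ) → ℝ} (h1 : Integrable φ (stdPi κ))
    (h2 : Integrable φ' (stdPi κ)) (h3 : Integrable (fun g => g p * φ g) (stdPi κ))
    (hd : ∀ g x, HasDerivAt (fun y => φ (Function.update g p y)) (φ' (Function.update g p x)) x) :
    ∫ g, g p * φ g ∂stdPi κ = ∫ g, φ' g ∂stdPi κ := by
  have hu := P150.measurePreserving_update (κ := κ) p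
  rw [← hu.map_eq, integral_map hu.measurable.aemeasurable (by rw [hu.map_eq]; exact h3.1),
    integral_map hu.measurable.aemeasurable (by rw [hu.map_eq]; exact h2.1)]
  rw [integral_prod (fun z : (κ → ℝ) × ℝ => Function.update z.1 p z.2 p * φ (Function.update z.1 p z.2))
      (hu.integrable_comp_of_integrable h3),
    integral_prod (fun z : (κ → ℝ) × ℝ => φ' (Function.update z.1 p z.2))
      (hu.integrable_comp_of_integrable h2)]
  refine integral_congr_ae ?_
  filter_upwards [(hu.integrable_comp_of_integrable h1).prod_right_ae,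
    (hu.integrable_comp_of_integrable h2).prod_right_ae,
    (hu.integrable_comp_of_integrable h3).prod_right_ae] with g i1 i2 i3
  simp only [Function.comp_apply, Function.update_self] at i1 i2 i3 ⊢
  exact P150.stein (hd g) i1 i2 i3

omit [Fintype κ] in
theorem pderiv_comm' (p q : κ) (P : MvPolynomial κ ℝ) :
    pderiv p (pderiv q P) = pderiv q (pderiv p P) := by
  classical
  have h : ⁅pderiv (R := ℝ) p, pderiv (R := ℝ) q⁆
      = (0 : Derivation ℝ (MvPolynomial κ ℝ) (MvPolynomial κ ℝ)) :=
    MvPolynomial.derivation_ext fun i => by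
      simp [Derivation.commutator_apply, pderiv_X, Pi.single_apply, apply_ite]
  have h' := Derivation.congr_fun h P
  simpa [Derivation.commutator_apply, sub_eq_zero] using h'

/-- The negative of the generator. -/
noncomputable def gL (φ : MvPolynomial κ ℝ) : MvPolynomial κ ℝ :=
  ∑ p, (X p * pderiv p φ - pderiv p (pderiv p φ))

theorem pmean_X_mul [DecidableEq κ] (p : κ) (P : MvPolynomial κ ℝ) : pmean (X p * P) = pmean (pderiv p P) := by
  have h := ibp p (φ := fun g => MvPolynomial.eval g P) (φ' := fun g => MvPolynomial.eval g (pderiv p P))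
    (integrable_peval P) (integrable_peval _) ((integrable_peval (X p * P)).congr (ae_of_all _ fun g => by simp))
    fun g x => hasDerivAt_peval P p g x
  simpa [pmean] using h

theorem pmean_sum {ι : Type*} (s : Finset ι) (P : ι → MvPolynomial κ ℝ) :
    pmean (∑ i ∈ s, P i) = ∑ i ∈ s, pmean (P i) := by
  simp only [pmean, map_sum]
  exact integral_finsetSum _ fun i _ => integrable_peval _

theorem pmean_add (P Q : MvPolynomial κ ℝ) : pmean (P + Q) = pmean P + pmean Q := by
  simp only [pmean, map_add]
  exact integral_add (integrable_peval _) (integrable_peval _)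

theorem pmean_sub (P Q : MvPolynomial κ ℝ) : pmean (P - Q) = pmean P - pmean Q := by
  simp only [pmean, map_sub]
  exact integral_sub (integrable_peval _) (integrable_peval _)

theorem pmean_gL_mul (φ Q : MvPolynomial κ ℝ) :
    pmean (gL φ * Q) = ∑ p, pmean (pderiv p φ * pderiv p Q) := by
  classical
  simp only [gL, sum_mul, pmean_sum]
  refine sum_congr rfl fun p _ => ?_
  rw [sub_mul, mul_assoc, pmean_sub, pmean_X_mul, pderiv_mul, pmean_add]
  ring

theorem pderiv_gL (p : κ) (φ : MvPolynomial κ ℝ) : pderiv p (gL φ) = pderiv p φ + gL (pderiv p φ) := by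
  classical
  simp only [gL, map_sum, map_sub, pderiv_mul, pderiv_X]
  simp only [fun q => pderiv_comm' p q φ, fun q => pderiv_comm' p q (pderiv q φ)]
  simp only [sum_sub_distrib, sum_add_distrib]
  rw [sum_eq_single p (fun q _ hq => by simp [hq]) (by simp)]
  simp
  abel

/-- The second moment of `gL φ`: the squared Hessian and the squared gradient. -/
theorem pmean_gL_sq (φ : MvPolynomial κ ℝ) : pmean (gL φ * gL φ)
    = ∑ p, pmean (pderiv p φ * pderiv p φ)
      + ∑ p, ∑ q, pmean (pderiv q (pderiv p φ) * pderiv q (pderiv p φ)) := by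
  rw [pmean_gL_mul, ← sum_add_distrib]
  refine sum_congr rfl fun p _ => ?_
  rw [pderiv_gL, mul_add, pmean_add, mul_comm (pderiv p φ) (gL _), pmean_gL_mul]

theorem pmean_gL (φ : MvPolynomial κ ℝ) : pmean (gL φ) = 0 := by
  have h := pmean_gL_mul φ 1
  simpa [pmean] using h

/-- The mean of `F * gL φ` for a function of linear growth with bounded slopes. -/
theorem integral_mul_gL [DecidableEq κ] {F : (κ → ℝ) → ℝ} {F' : κ → (κ → ℝ) → ℝ} (hF : Measurable F)
    (hF' : ∀ p, Measurable (F' p)) {C B : ℝ} (hb : ∀ g, |F g| ≤ C * (1 + ∑ i, |g i|))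
    (hb' : ∀ p g, |F' p g| ≤ B)
    (hd : ∀ p g x, HasDerivAt (fun y => F (Function.update g p y)) (F' p (Function.update g p x)) x)
    (φ : MvPolynomial κ ℝ) :
    ∫ g, F g * MvPolynomial.eval g (gL φ) ∂stdPi κ
      = ∑ p, ∫ g, F' p g * MvPolynomial.eval g (pderiv p φ) ∂stdPi κ := by
  have hi := fun Q => integrable_mul_peval hF hb Q
  have hi' : ∀ p Q, Integrable (fun g => F' p g * MvPolynomial.eval g Q) (stdPi κ) := fun p Q =>
    (integrable_peval Q).bdd_mul (hF' p).aestronglyMeasurable (ae_of_all _ fun g => by
      rw [Real.norm_eq_abs]; exact hb' p g)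
  simp only [gL, map_sum, mul_sum]
  rw [integral_finsetSum _ fun p _ => hi _]
  refine sum_congr rfl fun p _ => ?_
  set Q := pderiv p φ
  have h := ibp p (φ := fun g => F g * MvPolynomial.eval g Q)
    (φ' := fun g => F' p g * MvPolynomial.eval g Q + F g * MvPolynomial.eval g (pderiv p Q))
    (hi Q) ((hi' p Q).add (hi _))
    ((hi (X p * Q)).congr (ae_of_all _ fun g => by simp; ring))
    fun g x => (hd p g x).mul (hasDerivAt_peval Q p g x)
  rw [integral_add (hi' p Q) (hi _)] at h
  have e : ∀ g : κ → ℝ, F g * MvPolynomial.eval g (X p * Q - pderiv p Q)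
      = g p * (F g * MvPolynomial.eval g Q) - F g * MvPolynomial.eval g (pderiv p Q) := fun g => by
    simp only [map_sub, MvPolynomial.eval_mul, MvPolynomial.eval_X]; ring
  simp only [e]
  rw [integral_sub ((hi (X p * Q)).congr (ae_of_all _ fun g => by simp; ring)) (hi _), h]
  ring

end Vale.Agent.P146.Proj
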