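import Vale.Agent.P146.Pins
import Vale.Agent.P146.Proj.Gauss
import Vale.Agent.P166.Gauss

/-!
# P146: the diagonal of the GOE matrix

The symmetrised off-diagonal entries are the couplings and the diagonal is independent of them, so the
free energy of the GOE matrix has the variance of the model plus `β² / 2`.
-/

open MeasureTheory ProbabilityTheory Finset Matrix

namespace Vale.Agent.P146.Proj

open P150 (stdPi Edge)

variable {n : ℕ}

/-- Forgetting coordinates preserves standard normal families. -/
theorem mp_coords {ι ι' : Type} [Fintype ι] [Fintype ι'] {e : ι' → ι} (he : Function.Injective e) :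
    MeasurePreserving (fun (w : ι → ℝ) i => w (e i)) (stdPi ι) (stdPi ι') := by
  classical
  let q := (Equiv.sumCongr (Equiv.ofInjective e he) (Equiv.refl ((Set.range e)ᶜ : Set ι))).trans
    (Equiv.Set.sumCompl (Set.range e))
  have h1 : MeasurePreserving (fun (w : ι → ℝ) i => w (q i)) (stdPi ι)
      (stdPi (ι' ⊕ ((Set.range e)ᶜ : Set ι))) :=
    (measurePreserving_piCongrLeft (fun _ : ι => P150.std) q).symm _
  have h2 := measurePreserving_sumPiEquivProdPi
    (fun _ : ι' ⊕ ((Set.range e)ᶜ : Set ι) => P150.std)
  have h3 := measurePreserving_fst (μ := Measure.pi fun _ : ι' => P150.std)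
    (ν := Measure.pi fun _ : ((Set.range e)ᶜ : Set ι) => P150.std)
  exact (h3.comp h2).comp h1

/-- The rotation that symmetrises above and antisymmetrises below the diagonal. -/
noncomputable def rot (n : ℕ) : Matrix (Fin n × Fin n) (Fin n × Fin n) ℝ := fun p r =>
  if p.1 = p.2 then (if r = p then 1 else 0)
  else if p.1 < p.2 then (if r = p then (√2)⁻¹ else 0) + (if r = p.swap then (√2)⁻¹ else 0)
  else (if r = p.swap then (√2)⁻¹ else 0) - (if r = p then (√2)⁻¹ else 0)

theorem rot_mulVec (x : Fin n × Fin n → ℝ) (p : Fin n × Fin n) : (rot n).mulVec x p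
    = if p.1 = p.2 then x p else if p.1 < p.2 then (x p + x p.swap) / √2 else (x p.swap - x p) / √2 := by
  simp only [Matrix.mulVec, dotProduct, rot]
  split_ifs <;> simp [add_mul, sub_mul, sum_add_distrib, sum_sub_distrib] <;> ring

theorem rot_symm (n : ℕ) : (rot n).transpose = rot n := by
  ext ⟨a, b⟩ ⟨u, v⟩
  simp only [Matrix.transpose_apply, rot, Prod.swap_prod_mk, Prod.mk.injEq]
  split_ifs <;> first | rfl | omega | simp

theorem rot_orth (n : ℕ) : (rot n).transpose * rot n = 1 := by
  rw [rot_symm]
  refine Matrix.ext_of_mulVec_single fun r => ?_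
  rw [← Matrix.mulVec_mulVec, Matrix.one_mulVec]
  funext p
  obtain ⟨a, b⟩ := p
  have h2 : (√2 : ℝ) ^ 2 = 2 := Real.sq_sqrt zero_le_two
  rw [rot_mulVec, rot_mulVec, rot_mulVec]
  simp only [Prod.swap_prod_mk]
  rcases lt_trichotomy a b with h | h | h
  · simp only [h, h.ne, h.ne', h.not_gt, if_true, if_false]
    field_simp
    rw [h2]; ring
  · simp [h]
  · simp only [h, h.ne, h.ne', h.not_gt, if_true, if_false]
    field_simp
    rw [h2]; ring

/-- The couplings and the diagonal of an array. -/
noncomputable def split (n : ℕ) (A : Fin n × Fin n → ℝ) : (Edge n → ℝ) × (Fin n → ℝ) :=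
  (fun e => (A e.1 + A e.1.swap) / √2, fun i => A (i, i))

theorem mp_split (n : ℕ) :
    MeasurePreserving (split n) (arrLaw n) ((P150.disorder n).prod (stdPi (Fin n))) := by
  let emb : Edge n ⊕ Fin n → Fin n × Fin n := Sum.elim (fun e => e.1) fun i => (i, i)
  have he : Function.Injective emb := by
    rintro (x | x) (y | y) h <;> simp only [emb, Sum.elim_inl, Sum.elim_inr] at h
    · exact congrArg Sum.inl (Subtype.ext h)
    · have := x.2; rw [h] at this; exact absurd this (lt_irrefl y)
    · have := y.2; rw [← h] at this; exact absurd this (lt_irrefl x)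
    · exact congrArg Sum.inr (Prod.ext_iff.1 h).1
  have h1 := P166.measurePreserving_orth (rot n) (rot_orth n)
  have h2 := mp_coords he
  have h3 := measurePreserving_sumPiEquivProdPi (fun _ : Edge n ⊕ Fin n => P150.std)
  refine ⟨by unfold split; fun_prop, ?_⟩
  have e : split n = MeasurableEquiv.sumPiEquivProdPi (fun _ : Edge n ⊕ Fin n => ℝ)
      ∘ (fun (w : Fin n × Fin n → ℝ) i => w (emb i)) ∘ fun A => (rot n).mulVec A := by
    funext A
    refine Prod.ext (funext fun x => ?_) (funext fun i => ?_)
    · have := x.2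
      simp [split, MeasurableEquiv.sumPiEquivProdPi, Equiv.sumPiEquivProdPi, emb, rot_mulVec, this, this.ne]
    · simp [split, MeasurableEquiv.sumPiEquivProdPi, Equiv.sumPiEquivProdPi, emb, rot_mulVec]
  rw [e]
  exact ((h3.comp h2).comp h1).map_eq

theorem memLp_lin (c : ℝ) : MemLp (fun d : Fin n → ℝ => c * ∑ i, d i) 2 (stdPi (Fin n)) := by
  have h : ∀ i, MemLp (fun d : Fin n → ℝ => d i) 2 (stdPi (Fin n)) := fun i =>
    (memLp_id_gaussianReal' (μ := 0) (v := 1) 2 ENNReal.ofNat_ne_top).comp_measurePreserving
      (P150.measurePreserving_coord i)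
  exact (memLp_finsetSum (univ : Finset (Fin n)) fun i _ => h i).const_mul c

theorem variance_lin (c : ℝ) :
    variance (fun d : Fin n → ℝ => c * ∑ i, d i) (stdPi (Fin n)) = c ^ 2 * n := by
  set L : MvPolynomial (Fin n) ℝ := ∑ i, MvPolynomial.X i
  have hL : ∀ d : Fin n → ℝ, ∑ i, d i = MvPolynomial.eval d L := fun d => by simp [L]
  have h1 : pmean L = 0 := by
    rw [pmean_sum]
    refine sum_eq_zero fun i _ => ?_
    have h := pmean_X_mul i (1 : MvPolynomial (Fin n) ℝ)
    simpa [pmean] using h
  have h2 : pmean (L * L) = n := by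
    have e : ∀ i, pmean (MvPolynomial.X i * L) = 1 := fun i => by
      rw [pmean_X_mul]
      simp [L, pmean, MvPolynomial.pderiv_X, Pi.single_apply]
    rw [show L * L = ∑ i, MvPolynomial.X i * L from sum_mul _ _ _, pmean_sum]
    simp [e]
  rw [variance_eq_sub (memLp_lin c)]
  simp only [Pi.pow_apply, hL, integral_const_mul, mul_pow]
  rw [show ∫ d, MvPolynomial.eval d L ∂stdPi (Fin n) = 0 from h1]
  rw [show (fun d : Fin n → ℝ => MvPolynomial.eval d L ^ 2) = fun d => MvPolynomial.eval d (L * L) from
    funext fun d => by simp [sq], show ∫ d, MvPolynomial.eval d (L * L) ∂stdPi (Fin n) = (n : ℝ) from h2]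
  ring

theorem exponent_split (β : ℝ) (A : Fin n × Fin n → ℝ) (x : Fin n → Bool) :
    β / 2 * quad (goe n A) x = β * P150.energy n (split n A).1 x + β / √(2 * n) * ∑ i, A (i, i) := by
  have hsp : ∀ b, P166.spin b = P150.spin b := fun b => rfl
  have key : ∑ p : Fin n × Fin n, A p * (P150.spin (x p.1) * P150.spin (x p.2))
      = (∑ e : Edge n, (A e.1 + A e.1.swap) * (P150.spin (x e.1.1) * P150.spin (x e.1.2))) + ∑ i, A (i, i) := by
    set T := fun p : Fin n × Fin n => A p * (P150.spin (x p.1) * P150.spin (x p.2))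
    have h1 : ∑ p, T p = ∑ p ∈ univ.filter (fun p => p.1 < p.2), T p
        + (∑ p ∈ univ.filter (fun p => p.2 < p.1), T p + ∑ p ∈ univ.filter (fun p => p.1 = p.2), T p) := by
      rw [← sum_filter_add_sum_filter_not univ (fun p : Fin n × Fin n => p.1 < p.2) T,
        ← sum_filter_add_sum_filter_not (univ.filter fun p : Fin n × Fin n => ¬p.1 < p.2) (fun p : Fin n × Fin n => p.2 < p.1) T,
        filter_filter, filter_filter]
      congr 2 <;> refine Finset.sum_congr (Finset.ext fun p => ?_) fun _ _ => rfl <;>
        simp only [mem_filter, mem_univ, true_and] <;> omega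
    rw [h1, ← add_assoc]
    congr 1
    · have hsw : ∑ p ∈ univ.filter (fun p : Fin n × Fin n => p.2 < p.1), T p
          = ∑ p ∈ univ.filter (fun p : Fin n × Fin n => p.1 < p.2), T p.swap :=
        sum_nbij' Prod.swap Prod.swap (by simp) (by simp) (by simp) (by simp) (by simp)
      rw [hsw, ← sum_add_distrib, sum_subtype (p := fun q : Fin n × Fin n => q.1 < q.2) _ (fun p => by simp)]
      refine sum_congr rfl fun e _ => ?_
      simp only [T, Prod.fst_swap, Prod.snd_swap]
      ring
    · refine (sum_nbij' (fun p => p.1) (fun i => (i, i)) ?_ ?_ ?_ ?_ ?_).trans rfl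
      all_goals try simp [T]
      intro a
      by_cases h : x a = true <;> simp [h, P150.spin]
  have hq : quad (goe n A) x = 2 / √(2 * n) * ∑ p : Fin n × Fin n, A p * (P150.spin (x p.1) * P150.spin (x p.2)) := by
    simp only [quad, goe, hsp, Fintype.sum_prod_type, mul_sum]
    simp only [mul_div_assoc', div_mul_eq_mul_div, mul_add, add_mul, add_div, sum_add_distrib]
    rw [sum_comm (f := fun i j => P150.spin (x i) * A (j, i) * P150.spin (x j) / √(2 * n)), ← sum_add_distrib]
    refine sum_congr rfl fun a _ => ?_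
    rw [← sum_add_distrib]
    exact sum_congr rfl fun b _ => by ring
  rw [hq, key, mul_add, mul_add]
  congr 1
  · simp only [P150.energy, split, mul_sum, sum_div]
    refine sum_congr rfl fun e _ => ?_
    rw [show √(2 * (n : ℝ)) = √2 * √n from Real.sqrt_mul zero_le_two _]
    ring
  · ring

/-- The GOE free energy has the variance of the model plus `β² / 2`. -/
theorem variance_goe (β : ℝ) (hn : 0 < n) (hF : MemLp (freeEnergy n β) 2 (P150.disorder n)) :
    variance (fun A => Real.log (∑ x : Fin n → Bool, Real.exp (β / 2 * quad (goe n A) x))) (arrLaw n)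
      = freeVar n β + β ^ 2 / 2 := by
  have e : (fun A => Real.log (∑ x : Fin n → Bool, Real.exp (β / 2 * quad (goe n A) x)))
      = (fun z : (Edge n → ℝ) × (Fin n → ℝ) => freeEnergy n β z.1 + β / √(2 * n) * ∑ i, z.2 i) ∘ split n := by
    funext A
    simp only [Function.comp_apply, exponent_split, Real.exp_add, ← sum_mul, freeEnergy]
    rw [Real.log_mul (sum_pos (fun _ _ => Real.exp_pos _) univ_nonempty).ne' (Real.exp_pos _).ne', Real.log_exp]
    rfl
  have : IsProbabilityMeasure (P150.disorder n) := by unfold P150.disorder; infer_instance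
  have hfm : Measurable (freeEnergy n β) := by
    unfold freeEnergy P150.energy
    exact Real.measurable_log.comp (Finset.measurable_sum _ fun x _ => Real.measurable_exp.comp
      (measurable_const.mul ((Finset.measurable_sum _ fun e _ =>
        (measurable_pi_apply e).mul_const _).div_const _)))
  have hm : Measurable fun z : (Edge n → ℝ) × (Fin n → ℝ) => freeEnergy n β z.1 + β / √(2 * n) * ∑ i, z.2 i := by
    exact (hfm.comp measurable_fst).add (by fun_prop)
  rw [e, ← variance_map hm.aemeasurable (mp_split n).measurable.aemeasurable, (mp_split n).map_eq]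
  have h1 : MemLp (fun z : (Edge n → ℝ) × (Fin n → ℝ) => freeEnergy n β z.1) 2
      ((P150.disorder n).prod (stdPi (Fin n))) := hF.comp_measurePreserving measurePreserving_fst
  have h2 : MemLp (fun z : (Edge n → ℝ) × (Fin n → ℝ) => β / √(2 * n) * ∑ i, z.2 i) 2
      ((P150.disorder n).prod (stdPi (Fin n))) := (memLp_lin _).comp_measurePreserving measurePreserving_snd
  have hind : IndepFun (fun z : (Edge n → ℝ) × (Fin n → ℝ) => freeEnergy n β z.1)
      (fun z => β / √(2 * n) * ∑ i, z.2 i) ((P150.disorder n).prod (stdPi (Fin n))) :=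
    indepFun_prod (X := freeEnergy n β) (Y := fun d : Fin n → ℝ => β / √(2 * n) * ∑ i, d i)
      hfm (by fun_prop)
  rw [hind.variance_fun_add h1 h2,
    measurePreserving_fst.variance_fun_comp (f := freeEnergy n β) hfm.aemeasurable,
    measurePreserving_snd.variance_fun_comp (f := fun d : Fin n → ℝ => β / √(2 * n) * ∑ i, d i) (by fun_prop),
    variance_lin, freeVar, div_pow, Real.sq_sqrt (by positivity)]
  have : (n : ℝ) ≠ 0 := by exact_mod_cast hn.ne'
  field_simp

end Vale.Agent.P146.Proj
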