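import Vale.Agent.P146.Proj.Main
import Vale.Agent.P146.Proj.Split
import Vale.Agent.P146.Goe.Limit

/-!
# P146: the variance bound by test fields

The projection bound of the GOE free energy, with the trace limits of the semicircle law and the
orthogonality of the Vieta–Lucas polynomials in it.
-/

open MeasureTheory ProbabilityTheory Real Finset Matrix Filter Topology
open Polynomial.Chebyshev (S)

namespace Vale.Agent.P146.Proj

open P150 (stdPi)

variable {n : ℕ}

theorem integral_cos_mul {k : ℕ} (hk : k ≠ 0) : ∫ θ in (0 : ℝ)..π, Real.cos (k * θ) = 0 := by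
  rw [intervalIntegral.integral_comp_mul_left (fun θ => Real.cos θ) (by exact_mod_cast hk)]
  simp [integral_cos, Real.sin_nat_mul_pi]

theorem integral_S_semi (m : ℕ) :
    ∫ t, (S ℝ (m : ℤ)).eval t ∂semi = if m = 0 then 1 else 0 := by
  have hS : ∀ θ : ℝ, (S ℝ (m : ℤ)).eval (2 * Real.cos θ) = (Polynomial.Chebyshev.U ℝ (m : ℤ)).eval (Real.cos θ) :=
    fun θ => by
      rw [← Polynomial.Chebyshev.S_comp_two_mul_X]
      simp
  rw [integral_semi (Polynomial.continuous _)]
  have hint : ∀ θ : ℝ, 2 / π * Real.sin θ ^ 2 * (S ℝ (m : ℤ)).eval (2 * Real.cos θ)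
      = 1 / π * (Real.cos (m * θ) - Real.cos ((m + 2 : ℕ) * θ)) := fun θ => by
    rw [hS, show ((m + 2 : ℕ) : ℝ) * θ = ((m : ℝ) + 1) * θ + θ by push_cast; ring,
      show (m : ℝ) * θ = ((m : ℝ) + 1) * θ - θ by ring, Real.cos_sub, Real.cos_add]
    have h := Polynomial.Chebyshev.U_real_cos θ (m : ℤ)
    push_cast at h
    linear_combination (2 / π * Real.sin θ) * h
  simp only [hint]
  rw [intervalIntegral.integral_const_mul, intervalIntegral.integral_sub
    (Continuous.intervalIntegrable (by fun_prop) _ _) (Continuous.intervalIntegrable (by fun_prop) _ _),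
    integral_cos_mul (by omega : m + 2 ≠ 0)]
  rcases eq_or_ne m 0 with rfl | hm
  · simp [pi_ne_zero]
  · rw [integral_cos_mul hm, if_neg hm]; ring

theorem integrable_poly_semi (p : Polynomial ℝ) : Integrable (fun t => p.eval t) semi := by
  have := isProb_semi
  obtain ⟨C, hC⟩ := isCompact_Icc.exists_bound_of_continuousOn (p.continuous.continuousOn (s := Set.Icc (-2) 2))
  exact Integrable.of_bound p.continuous.aestronglyMeasurable C (semi_support.mono hC)

/-- Integration against the semicircle law. -/
noncomputable def semiFun : Polynomial ℝ →ₗ[ℝ] ℝ where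
  toFun p := ∫ t, p.eval t ∂semi
  map_add' p q := by
    simp only [Polynomial.eval_add]
    exact integral_add (integrable_poly_semi p) (integrable_poly_semi q)
  map_smul' c p := by
    simp only [Polynomial.eval_smul, smul_eq_mul, RingHom.id_apply]
    exact integral_const_mul _ _

theorem tendsto_trP_mul (p q : Polynomial ℝ) :
    Tendsto (fun N : ℕ => ∫ g, Goe.trP (N := N) p g * Goe.trP (N := N) q g ∂stdPi (Fin N × Fin N)) atTop
      (𝓝 (semiFun p * semiFun q)) := by
  have hab : ∀ a b, Tendsto (fun N : ℕ => ∫ g, Goe.trM (N := N) a g * Goe.trM (N := N) b g ∂stdPi (Fin N × Fin N))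
      atTop (𝓝 (scMom a * scMom b)) := fun a b => by
    have h := (squeeze_zero_norm' ((eventually_gt_atTop 0).mono fun N hN => (norm_eq_abs _).trans_le
      (Goe.abs_cov_le hN a b)) (Goe.tendsto_inv_sq _)).add ((Goe.tendsto_mom a).mul (Goe.tendsto_mom b))
    simpa using h
  have e : ∀ N : ℕ, ∫ g, Goe.trP (N := N) p g * Goe.trP (N := N) q g ∂stdPi (Fin N × Fin N)
      = ∑ i ∈ range (p.natDegree + 1), ∑ j ∈ range (q.natDegree + 1),
        p.coeff i * q.coeff j * ∫ g, Goe.trM (N := N) i g * Goe.trM (N := N) j g ∂stdPi (Fin N × Fin N) :=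
    fun N => by
      have hi : ∀ i j, Integrable (fun g : Fin N × Fin N → ℝ =>
          p.coeff i * q.coeff j * (Goe.trM i g * Goe.trM j g)) (stdPi (Fin N × Fin N)) := fun i j =>
        (((Goe.grow_trM i).mul (Goe.grow_trM j)).const_mul _).integrable
      simp only [← integral_const_mul]
      simp only [← integral_finsetSum _ fun j _ => hi _ j]
      rw [← integral_finsetSum _ fun i _ => integrable_finsetSum _ fun j _ => hi i j]
      refine integral_congr_ae (ae_of_all _ fun g => ?_)
      simp only [Goe.trP_eq, sum_mul_sum]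
      exact sum_congr rfl fun i _ => sum_congr rfl fun j _ => by ring
  simp only [e, show ∀ r, semiFun r = ∫ t, r.eval t ∂semi from fun _ => rfl, Goe.integral_semi_poly,
    sum_mul_sum]
  refine tendsto_finsetSum _ fun i _ => tendsto_finsetSum _ fun j _ => ?_
  rw [show p.coeff i * scMom i * (q.coeff j * scMom j) = p.coeff i * q.coeff j * (scMom i * scMom j) by ring]
  exact (hab i j).const_mul _

theorem expo_eq_quad (β : ℝ) (g : Ix n → ℝ) (x : Fin n → Bool) : expo β g x = β / 2 * quad (goe n g) x := rfl

theorem ovl_eq_gMean (β : ℝ) (p : Polynomial ℝ) : ovl n β p = β * gMean β p n := by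
  rw [gMean, ← integral_const_mul]
  refine integral_congr_ae (ae_of_all _ fun g => ?_)
  simp only [avgQuad_eq, expo_eq_quad]
  show β / n * _ = β * (_ / n)
  rw [div_mul_eq_mul_div, mul_div_assoc]
  rfl

theorem variance_goeF (hn : 0 < n) (β : ℝ) :
    variance (goeF (n := n) β) (stdPi (Ix n)) = freeVar n β + β ^ 2 / 2 := by
  refine variance_goe β hn ?_
  have : IsProbabilityMeasure (P150.disorder n) := by unfold P150.disorder; infer_instance
  have hfm : Measurable (freeEnergy n β) := by
    unfold freeEnergy P150.energy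
    exact Real.measurable_log.comp (Finset.measurable_sum _ fun x _ => Real.measurable_exp.comp
      (measurable_const.mul ((Finset.measurable_sum _ fun e _ =>
        (measurable_pi_apply e).mul_const _).div_const _)))
  have hmp : MeasurePreserving (Prod.fst ∘ split n) (arrLaw n) (P150.disorder n) :=
    measurePreserving_fst.comp (mp_split n)
  have hsnd : MeasurePreserving (Prod.snd ∘ split n) (arrLaw n) (stdPi (Fin n)) :=
    measurePreserving_snd.comp (mp_split n)
  rw [← hmp.map_eq, memLp_map_measure_iff hfm.aestronglyMeasurable hmp.measurable.aemeasurable]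
  refine (memLp_congr_ae (ae_of_all _ fun A => ?_)).1
    ((memLp_goeF (n := n) β).sub ((memLp_lin (β / √(2 * n))).comp_measurePreserving hsnd))
  simp only [Pi.sub_apply, Function.comp_apply, goeF, expo_eq_quad, exponent_split, Real.exp_add, ← sum_mul,
    freeEnergy]
  rw [Real.log_mul (sum_pos (fun _ _ => Real.exp_pos _) univ_nonempty).ne' (Real.exp_pos _).ne', Real.log_exp]
  simp [split]

/-- Seat B: the variance bound by test fields. -/
theorem varStmt : VarStmt := by
  intro β ε J c _ hε
  filter_upwards [proj_asymp semiFun (fun m => integral_S_semi m) (fun p => Goe.tendsto_trP p) tendsto_trP_mul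
    β J c hε, eventually_gt_atTop 0] with n h hn
  rw [variance_goeF hn] at h
  have e : ∑ a ∈ range J, c a * (β / 2 * gMean β (cheb a) n)
      = (∑ m ∈ range J, c m * ovl n β (S ℝ (m : ℤ))) / 2 := by
    rw [sum_div]
    exact sum_congr rfl fun a _ => by rw [ovl_eq_gMean, cheb]; ring
  have e2 : ∑ m ∈ range J, ((m : ℝ) + 1) * c m ^ 2 = ∑ a ∈ range J, c a ^ 2 * ((a : ℝ) + 1) :=
    sum_congr rfl fun a _ => mul_comm _ _
  rw [e2] at h
  rw [e, div_pow]
  refine le_trans ?_ h
  linarith [sq_nonneg (∑ m ∈ range J, c m * ovl n β (S ℝ (m : ℤ)))]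

end Vale.Agent.P146.Proj
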