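import Vale.Agent.P146.Proj.Matrix
import Vale.Agent.P150.Defs

/-!
# P146: the free energy projected on trace polynomials

For a test polynomial `p = ∑ a m * S m` the centred variable `gL (tr P)`, `P' = p`, has covariance with the
free energy equal to the Gibbs mean of `β ⟨s, p(M) s⟩ / n` and second moment at most `4 ∑ (m + 1) (a m)²`
asymptotically.  Hence a variance lower bound from the Gibbs means alone.
-/

open MeasureTheory ProbabilityTheory Finset Matrix Filter Topology
open Polynomial.Chebyshev (S)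

namespace Vale.Agent.P146.Proj

open P150 (stdPi spin)

variable {n : ℕ}

/-- The exponent of one configuration. -/
noncomputable def expo (β : ℝ) (g : Ix n → ℝ) (s : Fin n → Bool) : ℝ :=
  β / 2 * ∑ a, ∑ b, spin (s a) * mat g a b * spin (s b)

/-- The free energy with the coupling matrix `mat`. -/
noncomputable def goeF (β : ℝ) (g : Ix n → ℝ) : ℝ := Real.log (∑ s, Real.exp (expo β g s))

/-- The Gibbs mean of a product of two spins. -/
noncomputable def cor (β : ℝ) (g : Ix n → ℝ) (e : Ix n) : ℝ :=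
  (∑ s, Real.exp (expo β g s) * (spin (s e.1) * spin (s e.2))) / ∑ s, Real.exp (expo β g s)

/-- The Gibbs mean of a quadratic form. -/
noncomputable def avgQuad (β : ℝ) (g : Ix n → ℝ) (A : Matrix (Fin n) (Fin n) ℝ) : ℝ :=
  ∑ e : Ix n, cor β g e * A e.1 e.2

theorem avgQuad_eq (β : ℝ) (g : Ix n → ℝ) (A : Matrix (Fin n) (Fin n) ℝ) :
    avgQuad β g A = (∑ s, Real.exp (expo β g s) * ∑ a, ∑ b, spin (s a) * A a b * spin (s b))
      / ∑ s, Real.exp (expo β g s) := by
  simp only [avgQuad, cor, div_mul_eq_mul_div, ← sum_div, mul_sum, sum_mul, Fintype.sum_prod_type]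
  conv_rhs => enter [1]; rw [sum_comm]; enter [2, a]; rw [sum_comm]
  congr 1
  exact sum_congr rfl fun a _ => sum_congr rfl fun b _ => sum_congr rfl fun s _ => by ring

/-- The mean of `β ⟨s, p(M) s⟩ / n` under disorder and Gibbs measure. -/
noncomputable def ovl (n : ℕ) (β : ℝ) (p : Polynomial ℝ) : ℝ :=
  ∫ g : Ix n → ℝ, β / n * avgQuad β g (rm g p) ∂stdPi (Ix n)

/-- The normalised trace of a polynomial of the coupling matrix. -/
noncomputable def trN (g : Ix n → ℝ) (p : Polynomial ℝ) : ℝ := Matrix.trace (rm g p) / n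

theorem spin_abs (b : Bool) : |spin b| = 1 := by cases b <;> simp [spin]

theorem expo_linear (β : ℝ) (g : Ix n → ℝ) (s : Fin n → Bool) :
    expo β g s = β / √(2 * n) * ∑ e : Ix n, g e * (spin (s e.1) * spin (s e.2)) := by
  simp only [expo, mat, Matrix.of_apply, Fintype.sum_prod_type, mul_div_assoc', div_mul_eq_mul_div,
    add_mul, mul_add, add_div, sum_add_distrib]
  rw [sum_comm (f := fun a b => spin (s a) * g (b, a) * spin (s b) / √(2 * n))]
  simp only [mul_sum, sum_div, ← sum_add_distrib]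
  exact sum_congr rfl fun a _ => sum_congr rfl fun b _ => by ring

theorem sum_exp_pos' (β : ℝ) (g : Ix n → ℝ) : 0 < ∑ s, Real.exp (expo β g s) :=
  sum_pos (fun _ _ => Real.exp_pos _) univ_nonempty

theorem abs_cor_le (β : ℝ) (g : Ix n → ℝ) (e : Ix n) : |cor β g e| ≤ 1 := by
  rw [cor, abs_div, abs_of_pos (sum_exp_pos' β g), div_le_one (sum_exp_pos' β g)]
  refine (abs_sum_le_sum_abs _ _).trans (sum_le_sum fun s _ => le_of_eq ?_)
  rw [abs_mul, abs_mul, spin_abs, spin_abs, abs_of_pos (Real.exp_pos _)]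
  ring

theorem measurable_expo (β : ℝ) (s : Fin n → Bool) : Measurable fun g => expo β g s := by
  simp only [expo_linear]; fun_prop

theorem measurable_goeF (β : ℝ) : Measurable (goeF (n := n) β) := by
  have := measurable_expo (n := n) β
  unfold goeF; fun_prop

theorem measurable_cor (β : ℝ) (e : Ix n) : Measurable fun g => cor β g e := by
  have := measurable_expo (n := n) β
  unfold cor; fun_prop

theorem abs_goeF_le (β : ℝ) : ∃ C, ∀ g : Ix n → ℝ, |goeF β g| ≤ C * (1 + ∑ e, |g e|) := by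
  refine ⟨n * Real.log 2 + |β| / √(2 * n), fun g => ?_⟩
  set B := |β| / √(2 * n) * ∑ e, |g e|
  have hB : ∀ s, |expo β g s| ≤ B := fun s => by
    rw [expo_linear, abs_mul, abs_div, abs_of_nonneg (Real.sqrt_nonneg _)]
    refine mul_le_mul_of_nonneg_left ((abs_sum_le_sum_abs _ _).trans (sum_le_sum fun e _ => le_of_eq ?_))
      (by positivity)
    simp [abs_mul, spin_abs]
  have hc : ((univ : Finset (Fin n → Bool)).card : ℝ) = 2 ^ n := by simp
  have hup : ∑ s, Real.exp (expo β g s) ≤ 2 ^ n * Real.exp B := by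
    refine (sum_le_sum fun s _ => Real.exp_le_exp.2 ((le_abs_self _).trans (hB s))).trans_eq ?_
    rw [sum_const, nsmul_eq_mul, hc]
  have hlo : 2 ^ n * Real.exp (-B) ≤ ∑ s, Real.exp (expo β g s) := by
    refine le_of_eq_of_le ?_ (sum_le_sum fun s _ => Real.exp_le_exp.2 (abs_le.1 (hB s)).1)
    rw [sum_const, nsmul_eq_mul, hc]
  have h1 := Real.log_le_log (sum_exp_pos' β g) hup
  have h2 := Real.log_le_log (by positivity) hlo
  rw [Real.log_mul (by positivity) (Real.exp_pos _).ne', Real.log_exp, Real.log_pow] at h1 h2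
  have hl : 0 ≤ n * Real.log 2 * ∑ e, |g e| :=
    mul_nonneg (mul_nonneg (Nat.cast_nonneg n) (Real.log_nonneg one_le_two)) (sum_nonneg fun e _ => abs_nonneg _)
  have hq : 0 ≤ |β| / √(2 * n) := by positivity
  have hn : 0 ≤ (n : ℝ) * Real.log 2 := mul_nonneg (Nat.cast_nonneg n) (Real.log_nonneg one_le_two)
  rw [goeF, abs_le]
  constructor <;> nlinarith [show B = |β| / √(2 * n) * ∑ e, |g e| from rfl]

theorem hasDerivAt_goeF (β : ℝ) (e : Ix n) (g : Ix n → ℝ) (x : ℝ) :
    HasDerivAt (fun y => goeF β (Function.update g e y))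
      (β / √(2 * n) * cor β (Function.update g e x) e) x := by
  have he : ∀ s, HasDerivAt (fun y => expo β (Function.update g e y) s)
      (β / √(2 * n) * (spin (s e.1) * spin (s e.2))) x := fun s => by
    simp only [expo_linear]
    refine (HasDerivAt.const_mul _ ((HasDerivAt.fun_sum (u := univ) fun f _ =>
      show HasDerivAt (fun y => Function.update g e y f * (spin (s f.1) * spin (s f.2)))
        (if f = e then spin (s e.1) * spin (s e.2) else 0) x from ?_).congr_deriv (by simp)))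
    by_cases hf : f = e
    · subst hf; simpa using (hasDerivAt_id' x).mul_const (spin (s f.1) * spin (s f.2))
    · simpa [hf] using hasDerivAt_const x (g f * (spin (s f.1) * spin (s f.2)))
  refine (HasDerivAt.log (HasDerivAt.fun_sum fun s _ => (he s).exp)
    (sum_exp_pos' β _).ne').congr_deriv ?_
  rw [cor, ← mul_div_assoc, mul_sum]
  congr 1
  exact sum_congr rfl fun s _ => by ring

theorem integrable_avgQuad (β : ℝ) (p : Polynomial ℝ) :
    Integrable (fun g : Ix n → ℝ => avgQuad β g (rm g p)) (stdPi (Ix n)) := by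
  simp only [avgQuad, ← eval_pm]
  exact integrable_finsetSum _ fun e _ => (integrable_peval _).bdd_mul
    (measurable_cor β e).aestronglyMeasurable (ae_of_all _ fun g => by
      rw [Real.norm_eq_abs]; exact abs_cor_le β g e)

/-- The covariance of the free energy with the test variable. -/
theorem cov_test (β : ℝ) (p : Polynomial ℝ) :
    ∫ g, goeF β g * MvPolynomial.eval g (gL (test n p)) ∂stdPi (Ix n) = ovl n β p := by
  obtain ⟨C, hC⟩ := abs_goeF_le (n := n) β
  have hm : ∀ e, Measurable fun g : Ix n → ℝ => β / √(2 * n) * cor β g e := fun e =>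
    (measurable_cor β e).const_mul _
  have hb : ∀ e (g : Ix n → ℝ), |β / √(2 * n) * cor β g e| ≤ |β / √(2 * n)| := fun e g => by
    rw [abs_mul]; exact mul_le_of_le_one_right (abs_nonneg _) (abs_cor_le β g e)
  rw [integral_mul_gL (measurable_goeF β) hm hC hb (fun e g x => hasDerivAt_goeF β e g x)]
  simp only [eval_grad]
  have hi : ∀ e : Ix n, Integrable (fun g : Ix n → ℝ =>
      β / √(2 * n) * cor β g e * (2 * (√(2 * n))⁻¹ * rm g p e.1 e.2)) (stdPi (Ix n)) := fun e => by
    refine ((integrable_peval (pm n p e.1 e.2)).const_mul (2 * (√(2 * n))⁻¹)).bdd_mul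
      (c := |β / √(2 * n)|) (hm e).aestronglyMeasurable
      (ae_of_all _ fun g => by rw [Real.norm_eq_abs]; exact hb e g) |>.congr (ae_of_all _ fun g => ?_)
    simp only [eval_pm]
  rw [← integral_finsetSum _ fun e _ => hi e]
  refine integral_congr_ae (ae_of_all _ fun g => ?_)
  simp only [avgQuad, mul_sum]
  refine sum_congr rfl fun e _ => ?_
  have : √(2 * (n : ℝ)) ^ 2 = 2 * n := Real.sq_sqrt (by positivity)
  calc β / √(2 * n) * cor β g e * (2 * (√(2 * n))⁻¹ * rm g p e.1 e.2)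
      = 2 * β / √(2 * n) ^ 2 * (cor β g e * rm g p e.1 e.2) := by ring
    _ = _ := by rw [this, mul_div_mul_left _ _ (two_ne_zero)]

theorem memLp_goeF (β : ℝ) : MemLp (goeF (n := n) β) 2 (stdPi (Ix n)) := by
  obtain ⟨C, hC⟩ := abs_goeF_le (n := n) β
  have h1 : ∀ e : Ix n, MemLp (fun g : Ix n → ℝ => |g e|) 2 (stdPi (Ix n)) := fun e =>
    ((memLp_id_gaussianReal' (μ := 0) (v := 1) 2 ENNReal.ofNat_ne_top).comp_measurePreserving
      (P150.measurePreserving_coord e)).norm
  refine MemLp.mono' (((memLp_const (1 : ℝ)).add (memLp_finsetSum (univ : Finset (Ix n)) fun e _ => h1 e)).const_mul C)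
    (measurable_goeF β).aestronglyMeasurable (ae_of_all _ fun g => ?_)
  simpa using hC g

/-- The variance dominates twice the covariance less the second moment of a centred polynomial. -/
theorem two_mul_ovl_le (β : ℝ) (p : Polynomial ℝ) :
    2 * ovl n β p - pmean (gL (test n p) * gL (test n p))
      ≤ variance (goeF β) (stdPi (Ix n)) := by
  set G := gL (test n p)
  obtain ⟨C, hC⟩ := abs_goeF_le (n := n) β
  set m := ∫ g, goeF (n := n) β g ∂stdPi (Ix n)
  have hF := (memLp_goeF (n := n) β).sub (memLp_const m)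
  have h0 : ∫ g, MvPolynomial.eval g G ∂stdPi (Ix n) = 0 := pmean_gL _
  have hFG := integrable_mul_peval (measurable_goeF β) hC G
  have hsq : Integrable (fun g => (goeF β g - m) ^ 2) (stdPi (Ix n)) := hF.integrable_sq
  have hG2 : Integrable (fun g => MvPolynomial.eval g G * MvPolynomial.eval g G) (stdPi (Ix n)) :=
    (integrable_peval (G * G)).congr (ae_of_all _ fun g => by simp)
  have hlin : Integrable (fun g => (goeF β g - m) * MvPolynomial.eval g G) (stdPi (Ix n)) :=
    (hFG.sub ((integrable_peval G).const_mul m)).congr (ae_of_all _ fun g => by simp; ring)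
  have hcov : ∫ g, (goeF β g - m) * MvPolynomial.eval g G ∂stdPi (Ix n) = ovl n β p := by
    rw [show (fun g => (goeF β g - m) * MvPolynomial.eval g G)
      = fun g => goeF β g * MvPolynomial.eval g G - m * MvPolynomial.eval g G from funext fun g => by ring,
      integral_sub hFG ((integrable_peval G).const_mul m), integral_const_mul, h0, cov_test]
    simp
  have hpos : 0 ≤ ∫ g, ((goeF β g - m) ^ 2 - 2 * ((goeF β g - m) * MvPolynomial.eval g G))
      + MvPolynomial.eval g G * MvPolynomial.eval g G ∂stdPi (Ix n) :=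
    integral_nonneg fun g => by
      simp only [Pi.zero_apply]
      nlinarith [sq_nonneg (goeF β g - m - MvPolynomial.eval g G)]
  rw [integral_add (hsq.sub' (hlin.const_mul 2)) hG2, integral_sub hsq (hlin.const_mul 2),
    integral_const_mul, hcov] at hpos
  rw [variance_eq_integral (measurable_goeF β).aemeasurable]
  have e : pmean (G * G) = ∫ g, MvPolynomial.eval g G * MvPolynomial.eval g G ∂stdPi (Ix n) := by
    simp [pmean]
  linarith

/-- The index set of the Hessian kernel. -/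
def hidx (J : ℕ) : Finset (Σ _ : ℕ, ℕ) := (range J).sigma fun m => range m

/-- The integrand of the second moment of the test variable. -/
noncomputable def bnd (J : ℕ) (a : ℕ → ℝ) (g : Ix n → ℝ) : ℝ :=
  2 * trN g (lead J a * lead J a) + 2 * ∑ x ∈ hidx J, ∑ y ∈ hidx J, a x.1 * a y.1
    * (trN g (S ℝ (x.2 : ℤ) * S ℝ (y.2 : ℤ))
        * trN g (S ℝ ((x.1 - 1 - x.2 : ℕ) : ℤ) * S ℝ ((y.1 - 1 - y.2 : ℕ) : ℤ))
      + (n : ℝ)⁻¹ * trN g (S ℝ (x.2 : ℤ) * S ℝ ((y.1 - 1 - y.2 : ℕ) : ℤ)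
          * (S ℝ (y.2 : ℤ) * S ℝ ((x.1 - 1 - x.2 : ℕ) : ℤ))))

theorem sum_entries (g : Ix n → ℝ) (p q : Polynomial ℝ) :
    ∑ a, ∑ b, rm g p a b * rm g q a b = Matrix.trace (rm g (p * q)) := by
  simp only [rm_mul, Matrix.trace, Matrix.diag, Matrix.mul_apply]
  exact sum_congr rfl fun a _ => sum_congr rfl fun b _ => by rw [rm_comm g q a b]

theorem hker_eq (g : Ix n → ℝ) (J : ℕ) (a : ℕ → ℝ) (p q u v : Fin n) : hker J a g p q u v = ∑ x ∈ hidx J,
    a x.1 * (rm g (S ℝ (x.2 : ℤ)) p u * rm g (S ℝ ((x.1 - 1 - x.2 : ℕ) : ℤ)) v q) := by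
  rw [hidx, sum_sigma]
  exact sum_congr rfl fun m _ => mul_sum _ _ _

theorem sum_hker_sq (g : Ix n → ℝ) (J : ℕ) (a : ℕ → ℝ) :
    ∑ p, ∑ q, ∑ u, ∑ v, hker J a g p q u v ^ 2
      = ∑ x ∈ hidx J, ∑ y ∈ hidx J, a x.1 * a y.1
        * (Matrix.trace (rm g (S ℝ (x.2 : ℤ) * S ℝ (y.2 : ℤ)))
          * Matrix.trace (rm g (S ℝ ((x.1 - 1 - x.2 : ℕ) : ℤ) * S ℝ ((y.1 - 1 - y.2 : ℕ) : ℤ)))) := by
  simp only [hker_eq, sq, sum_mul_sum]
  simp only [sum_comm (s := univ) (t := hidx J)]
  refine sum_congr rfl fun x _ => sum_congr rfl fun y _ => ?_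
  rw [← sum_entries, ← sum_entries, sum_mul_sum]
  simp only [mul_sum, sum_mul]
  refine sum_congr rfl fun p _ => ?_
  conv_lhs => enter [2, q]; rw [sum_comm]
  rw [sum_comm]
  exact sum_congr rfl fun v _ => sum_congr rfl fun q _ => sum_congr rfl fun u _ => by ring

theorem sum_hker_cross (g : Ix n → ℝ) (J : ℕ) (a : ℕ → ℝ) :
    ∑ p, ∑ q, ∑ u, ∑ v, hker J a g p q u v * hker J a g p q v u
      = ∑ x ∈ hidx J, ∑ y ∈ hidx J, a x.1 * a y.1
        * Matrix.trace (rm g (S ℝ (x.2 : ℤ) * S ℝ ((y.1 - 1 - y.2 : ℕ) : ℤ)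
            * (S ℝ (y.2 : ℤ) * S ℝ ((x.1 - 1 - x.2 : ℕ) : ℤ)))) := by
  simp only [hker_eq, sum_mul_sum]
  simp only [sum_comm (s := univ) (t := hidx J)]
  refine sum_congr rfl fun x _ => sum_congr rfl fun y _ => ?_
  rw [← sum_entries]
  simp only [rm_mul, Matrix.mul_apply, sum_mul, mul_sum]
  refine sum_congr rfl fun p _ => sum_congr rfl fun q _ => ?_
  rw [sum_comm]
  exact sum_congr rfl fun v _ => sum_congr rfl fun u _ => by ring

theorem hess_eq_bnd (g : Ix n → ℝ) (J : ℕ) (a : ℕ → ℝ) :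
    (∑ e : Ix n, MvPolynomial.eval g (MvPolynomial.pderiv e (test n (lead J a))) ^ 2)
      + ∑ e : Ix n, ∑ f : Ix n,
        MvPolynomial.eval g (MvPolynomial.pderiv f (MvPolynomial.pderiv e (test n (lead J a)))) ^ 2
      = bnd J a g := by
  set c := (√(2 * (n : ℝ)))⁻¹
  have hc : c ^ 2 = (2 * (n : ℝ))⁻¹ := by rw [inv_pow, Real.sq_sqrt (by positivity)]
  have h1 : (∑ e : Ix n, MvPolynomial.eval g (MvPolynomial.pderiv e (test n (lead J a))) ^ 2)
      = 2 * trN g (lead J a * lead J a) := by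
    rw [trN, ← sum_entries, Fintype.sum_prod_type, sum_div, mul_sum]
    refine sum_congr rfl fun p _ => ?_
    rw [sum_div, mul_sum]
    refine sum_congr rfl fun q _ => ?_
    rw [eval_grad, mul_pow, mul_pow, hc]
    ring
  have h2 : (∑ e : Ix n, ∑ f : Ix n,
      MvPolynomial.eval g (MvPolynomial.pderiv f (MvPolynomial.pderiv e (test n (lead J a)))) ^ 2)
      = 8 * (c ^ 2) ^ 2 * ((∑ p, ∑ q, ∑ u, ∑ v, hker J a g p q u v ^ 2)
          + ∑ p, ∑ q, ∑ u, ∑ v, hker J a g p q u v * hker J a g p q v u) := by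
    have e : ∀ p q u v, (c * c * (hker J a g p q u v + hker J a g p q v u + hker J a g q p u v
        + hker J a g q p v u)) ^ 2 = 4 * (c ^ 2) ^ 2 * (hker J a g p q u v ^ 2
          + 2 * (hker J a g p q u v * hker J a g p q v u) + hker J a g p q v u ^ 2) := fun p q u v => by
      rw [hker_swap g J a p q u v, hker_swap g J a p q v u]
      ring
    simp only [eval_hess, Fintype.sum_prod_type]
    rw [show (√(2 * (n : ℝ)))⁻¹ = c from rfl]
    simp only [e, ← mul_sum, sum_add_distrib]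
    have e1 : ∑ p, ∑ q, ∑ u, ∑ v, hker J a g p q v u ^ 2 = ∑ p, ∑ q, ∑ u, ∑ v, hker J a g p q u v ^ 2 :=
      sum_congr rfl fun p _ => sum_congr rfl fun q _ => sum_comm
    rw [e1]
    ring
  rw [h1, h2, hc, sum_hker_sq, sum_hker_cross, bnd]
  congr 1
  simp only [mul_sum, ← sum_add_distrib, trN]
  exact sum_congr rfl fun x _ => sum_congr rfl fun y _ => by ring

theorem integrable_trN (p : Polynomial ℝ) : Integrable (fun g : Ix n → ℝ => trN g p) (stdPi (Ix n)) := by
  refine ((integrable_peval (Matrix.trace (pm n p))).div_const (n : ℝ)).congr (ae_of_all _ fun g => ?_)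
  simp [trN, Matrix.trace, eval_pm]

theorem integrable_trN_mul (p q : Polynomial ℝ) :
    Integrable (fun g : Ix n → ℝ => trN g p * trN g q) (stdPi (Ix n)) := by
  refine ((integrable_peval (Matrix.trace (pm n p) * Matrix.trace (pm n q))).div_const
    ((n : ℝ) * n)).congr (ae_of_all _ fun g => ?_)
  simp [trN, Matrix.trace, eval_pm, div_mul_div_comm]

theorem pmean_sq_eq (J : ℕ) (a : ℕ → ℝ) :
    pmean (gL (test n (lead J a)) * gL (test n (lead J a))) = ∫ g, bnd J a g ∂stdPi (Ix n) := by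
  rw [pmean_gL_sq]
  simp only [← pmean_sum, ← pmean_add]
  refine integral_congr_ae (ae_of_all _ fun g => ?_)
  simpa only [map_add, map_sum, ← sq, map_pow] using hess_eq_bnd g J a

theorem ovl_lead (β : ℝ) (J : ℕ) (a : ℕ → ℝ) :
    ovl n β (lead J a) = ∑ m ∈ range J, a m * ovl n β (S ℝ (m : ℤ)) := by
  simp only [ovl, ← integral_const_mul (a _)]
  rw [← integral_finsetSum _ fun m _ => ((integrable_avgQuad β _).const_mul _).const_mul _]
  refine integral_congr_ae (ae_of_all _ fun g => ?_)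
  simp only [avgQuad, lead, rm, map_sum, map_mul, Polynomial.aeval_C, Matrix.sum_apply,
    Algebra.algebraMap_eq_smul_one, Matrix.smul_mul, Matrix.one_mul, Matrix.smul_apply, smul_eq_mul,
    mul_sum]
  rw [sum_comm]
  exact sum_congr rfl fun m _ => sum_congr rfl fun e _ => by ring

/-- A functional that sends `S m` to `δ` makes the Vieta–Lucas polynomials orthonormal. -/
theorem apply_S_mul_S (Λ : Polynomial ℝ →ₗ[ℝ] ℝ) (hΛ : ∀ m : ℕ, Λ (S ℝ (m : ℤ)) = if m = 0 then 1 else 0) :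
    ∀ i l : ℕ, Λ (S ℝ (i : ℤ) * S ℝ (l : ℤ)) = if i = l then 1 else 0
  | 0, l => by simp [hΛ, eq_comm]
  | 1, 0 => by simpa using hΛ 1
  | 1, l + 1 => by
    have h : S ℝ ((1 : ℕ) : ℤ) * S ℝ ((l + 1 : ℕ) : ℤ) = S ℝ ((l + 2 : ℕ) : ℤ) + S ℝ (l : ℤ) := by
      simp [Polynomial.Chebyshev.S_add_two]
    rw [h, map_add, hΛ, hΛ]
    simp [eq_comm]
  | i + 2, 0 => by simpa using hΛ (i + 2)
  | i + 2, l + 1 => by
    have h : S ℝ ((i + 2 : ℕ) : ℤ) * S ℝ ((l + 1 : ℕ) : ℤ) = S ℝ ((i + 1 : ℕ) : ℤ) * S ℝ ((l + 2 : ℕ) : ℤ)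
        + S ℝ ((i + 1 : ℕ) : ℤ) * S ℝ (l : ℤ) - S ℝ (i : ℤ) * S ℝ ((l + 1 : ℕ) : ℤ) := by
      simp [Polynomial.Chebyshev.S_add_two]
      ring
    rw [h, map_sub, map_add, apply_S_mul_S Λ hΛ (i + 1) (l + 2), apply_S_mul_S Λ hΛ (i + 1) l,
      apply_S_mul_S Λ hΛ i (l + 1)]
    split_ifs <;> first | omega | norm_num

/-- The limit of the second moment of the test variable, from the first two trace limits. -/
theorem bnd_tendsto (Λ : Polynomial ℝ →ₗ[ℝ] ℝ) (hΛ : ∀ m : ℕ, Λ (S ℝ (m : ℤ)) = if m = 0 then 1 else 0)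
    (hT1 : ∀ p, Tendsto (fun n => ∫ g : Ix n → ℝ, trN g p ∂stdPi (Ix n)) atTop (𝓝 (Λ p)))
    (hT2 : ∀ p q, Tendsto (fun n => ∫ g : Ix n → ℝ, trN g p * trN g q ∂stdPi (Ix n)) atTop (𝓝 (Λ p * Λ q)))
    (J : ℕ) (a : ℕ → ℝ) :
    Tendsto (fun n => ∫ g : Ix n → ℝ, bnd J a g ∂stdPi (Ix n)) atTop
      (𝓝 (2 * ∑ m ∈ range J, ((m : ℝ) + 1) * a m ^ 2)) := by
  set P := fun x : (Σ _ : ℕ, ℕ) => S ℝ (x.2 : ℤ)
  set Q := fun x : (Σ _ : ℕ, ℕ) => S ℝ ((x.1 - 1 - x.2 : ℕ) : ℤ)
  have hsum : ∀ n, ∫ g : Ix n → ℝ, bnd J a g ∂stdPi (Ix n) = 2 * (∫ g, trN g (lead J a * lead J a) ∂stdPi (Ix n))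
      + 2 * ∑ x ∈ hidx J, ∑ y ∈ hidx J, a x.1 * a y.1 * ((∫ g, trN g (P x * P y) * trN g (Q x * Q y) ∂stdPi (Ix n))
        + (n : ℝ)⁻¹ * ∫ g, trN g (P x * Q y * (P y * Q x)) ∂stdPi (Ix n)) := fun n => by
    have hi : ∀ x y : (Σ _ : ℕ, ℕ), Integrable (fun g : Ix n → ℝ => a x.1 * a y.1 *
        (trN g (P x * P y) * trN g (Q x * Q y) + (n : ℝ)⁻¹ * trN g (P x * Q y * (P y * Q x)))) (stdPi (Ix n)) :=
      fun x y => ((integrable_trN_mul _ _).fun_add ((integrable_trN _).const_mul _)).const_mul _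
    unfold bnd
    rw [integral_add ((integrable_trN _).const_mul 2) ((integrable_finsetSum _ fun x _ =>
      integrable_finsetSum _ fun y _ => hi x y).const_mul 2),
      integral_const_mul, integral_const_mul,
      integral_finsetSum _ fun x _ => integrable_finsetSum _ fun y _ => hi x y]
    refine congrArg (fun u => _ + 2 * u) (sum_congr rfl fun x _ => ?_)
    rw [integral_finsetSum _ fun y _ => hi x y]
    refine sum_congr rfl fun y _ => ?_
    rw [integral_const_mul, integral_add (integrable_trN_mul _ _) ((integrable_trN _).const_mul _),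
      integral_const_mul]
  have h1 : Λ (lead J a * lead J a) = ∑ m ∈ range J, a m ^ 2 := by
    simp only [lead, sum_mul_sum, map_sum]
    refine sum_congr rfl fun m hm => ?_
    simp only [← Polynomial.smul_eq_C_mul, smul_mul_smul_comm, map_smul,
      apply_S_mul_S Λ hΛ, smul_eq_mul, mul_ite, mul_one, mul_zero, sum_ite_eq, if_pos hm, sq]
  have h2 : (∑ x ∈ hidx J, ∑ y ∈ hidx J, a x.1 * a y.1 * (Λ (P x * P y) * Λ (Q x * Q y) + 0 * Λ (P x * Q y * (P y * Q x))))
      = ∑ m ∈ range J, (m : ℝ) * a m ^ 2 := by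
    have e : ∀ x ∈ hidx J, ∑ y ∈ hidx J, a x.1 * a y.1
        * (Λ (P x * P y) * Λ (Q x * Q y) + 0 * Λ (P x * Q y * (P y * Q x))) = a x.1 ^ 2 := fun x hx => by
      obtain ⟨m, i⟩ := x
      rw [sum_eq_single_of_mem _ hx]
      · simp [P, Q, apply_S_mul_S Λ hΛ, sq]
      · rintro ⟨m', i'⟩ hy hne
        simp only [hidx, mem_sigma, mem_range] at hx hy
        simp only [P, Q, apply_S_mul_S Λ hΛ, zero_mul, add_zero, ite_mul, one_mul]
        split_ifs with h3 h4
        · exact absurd (by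
            obtain rfl : m' = m := by omega
            subst h3; rfl) hne
        · ring
        · ring
    rw [sum_congr rfl e, hidx, sum_sigma]
    exact sum_congr rfl fun m _ => by simp
  simp only [hsum]
  have hlim := ((hT1 (lead J a * lead J a)).const_mul 2).add ((tendsto_finsetSum (hidx J) fun x _ =>
    tendsto_finsetSum (hidx J) fun y _ => (((hT2 (P x * P y) (Q x * Q y))).add
      (tendsto_natCast_atTop_atTop.inv_tendsto_atTop.mul
        (hT1 (P x * Q y * (P y * Q x))))).const_mul (a x.1 * a y.1)).const_mul 2)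
  rw [h1, h2, ← mul_add, ← sum_add_distrib] at hlim
  simpa only [add_mul, one_mul, add_comm (_ * a _ ^ 2), Pi.inv_apply] using hlim

theorem bnd_nonneg (J : ℕ) (a : ℕ → ℝ) (g : Ix n → ℝ) : 0 ≤ bnd J a g := by
  rw [← hess_eq_bnd]; positivity

/-- The projection bound: the squared covariance over the second moment. -/
theorem proj_asymp (Λ : Polynomial ℝ →ₗ[ℝ] ℝ) (hΛ : ∀ m : ℕ, Λ (S ℝ (m : ℤ)) = if m = 0 then 1 else 0)
    (hT1 : ∀ p, Tendsto (fun n => ∫ g : Ix n → ℝ, trN g p ∂stdPi (Ix n)) atTop (𝓝 (Λ p)))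
    (hT2 : ∀ p q, Tendsto (fun n => ∫ g : Ix n → ℝ, trN g p * trN g q ∂stdPi (Ix n)) atTop (𝓝 (Λ p * Λ q)))
    (β : ℝ) (J : ℕ) (a : ℕ → ℝ) {ε : ℝ} (hε : 0 < ε) :
    ∀ᶠ n : ℕ in atTop, (∑ m ∈ range J, a m * ovl n β (S ℝ (m : ℤ))) ^ 2
      ≤ variance (goeF β) (stdPi (Ix n)) * (2 * (∑ m ∈ range J, ((m : ℝ) + 1) * a m ^ 2) + ε) := by
  filter_upwards [(bnd_tendsto Λ hΛ hT1 hT2 J a).eventually (gt_mem_nhds (lt_add_of_pos_right _ hε))] with n hn
  set B := ∫ g : Ix n → ℝ, bnd J a g ∂stdPi (Ix n)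
  set X := ∑ m ∈ range J, a m * ovl n β (S ℝ (m : ℤ))
  set V := variance (goeF β) (stdPi (Ix n))
  have hB : 0 ≤ B := integral_nonneg fun g => bnd_nonneg J a g
  have hV : 0 ≤ V := variance_nonneg _ _
  have key : ∀ t : ℝ, 2 * t * X - t ^ 2 * B ≤ V := fun t => by
    have h := two_mul_ovl_le (n := n) β (lead J fun m => t * a m)
    rw [pmean_sq_eq, ovl_lead] at h
    have e1 : ∑ m ∈ range J, t * a m * ovl n β (S ℝ (m : ℤ)) = t * X := by
      rw [mul_sum]; exact sum_congr rfl fun m _ => by ring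
    have el : lead J (fun m => t * a m) = t • lead J a := by
      simp only [lead, smul_sum, Polynomial.smul_eq_C_mul, map_mul, mul_assoc]
    have e2 : ∀ g : Ix n → ℝ, bnd J (fun m => t * a m) g = t ^ 2 * bnd J a g := fun g => by
      simp only [bnd, el, smul_mul_smul_comm]
      rw [show trN g ((t * t) • (lead J a * lead J a)) = t * t * trN g (lead J a * lead J a) by
        simp [trN, rm, mul_div_assoc]]
      simp only [mul_sum, mul_add (t ^ 2)]
      rw [sq]
      congr 1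
      · ring
      · exact sum_congr rfl fun x _ => sum_congr rfl fun y _ => by ring
    simp only [e1, e2, integral_const_mul] at h
    linarith
  rcases hB.eq_or_lt with h0 | hpos
  · rw [← h0] at key hn
    by_cases hX : X = 0
    · rw [hX, zero_pow two_ne_zero]; positivity
    · have h := key ((V + 1) / (2 * X))
      rw [show 2 * ((V + 1) / (2 * X)) * X = V + 1 by field_simp] at h
      linarith
  · have h := key (X / B)
    rw [show 2 * (X / B) * X - (X / B) ^ 2 * B = X ^ 2 / B by field_simp; ring, div_le_iff₀ hpos] at h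
    exact h.trans (mul_le_mul_of_nonneg_left hn.le hV)

end Vale.Agent.P146.Proj
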