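import Vale.Agent.P146.Proj.Gauss

/-!
# P146: trace polynomials of the coupling matrix

The gradient and the Hessian of the trace of a polynomial of the coupling matrix, with the Hessian
written by the product rule for Vieta–Lucas polynomials `S`.
-/

open MeasureTheory Finset Matrix MvPolynomial
open Polynomial.Chebyshev (S)

namespace Vale.Agent.P146.Proj

variable {n : ℕ}

/-- The coordinates of the coupling matrix. -/
abbrev Ix (n : ℕ) : Type := Fin n × Fin n

/-- The coupling matrix: the array plus its transpose over `√(2n)`. -/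
noncomputable def mat (g : Ix n → ℝ) : Matrix (Fin n) (Fin n) ℝ :=
  Matrix.of fun a b => (g (a, b) + g (b, a)) / √(2 * n)

/-- The coupling matrix over the polynomial ring. -/
noncomputable def pmat (n : ℕ) : Matrix (Fin n) (Fin n) (MvPolynomial (Ix n) ℝ) :=
  Matrix.of fun a b => MvPolynomial.C (√(2 * n))⁻¹ * (X (a, b) + X (b, a))

/-- A polynomial of the coupling matrix. -/
noncomputable def pm (n : ℕ) (p : Polynomial ℝ) : Matrix (Fin n) (Fin n) (MvPolynomial (Ix n) ℝ) :=
  Polynomial.aeval (pmat n) p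

/-- Its real value. -/
noncomputable def rm (g : Ix n → ℝ) (p : Polynomial ℝ) : Matrix (Fin n) (Fin n) ℝ :=
  Polynomial.aeval (mat g) p

theorem eval_pm (g : Ix n → ℝ) (p : Polynomial ℝ) (a b : Fin n) :
    MvPolynomial.eval g (pm n p a b) = rm g p a b := by
  have e : (MvPolynomial.aeval g).mapMatrix (pmat n) = mat g := by
    ext a b
    simp [AlgHom.mapMatrix_apply, Matrix.map_apply, pmat, mat, div_eq_inv_mul]
  rw [pm, rm, ← e, Polynomial.aeval_algHom_apply]
  simp [AlgHom.mapMatrix_apply]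

theorem transpose_mat (g : Ix n → ℝ) : (mat g)ᵀ = mat g := by
  ext a b
  simp [mat, add_comm]

theorem transpose_rm (g : Ix n → ℝ) (p : Polynomial ℝ) : (rm g p)ᵀ = rm g p := by
  simp only [rm, Polynomial.aeval_eq_sum_range, Matrix.transpose_sum, Matrix.transpose_smul,
    Matrix.transpose_pow, transpose_mat]

theorem rm_comm (g : Ix n → ℝ) (p : Polynomial ℝ) (a b : Fin n) : rm g p a b = rm g p b a :=
  (congrFun (congrFun (transpose_rm g p) a) b).symm

theorem rm_mul (g : Ix n → ℝ) (p q : Polynomial ℝ) : rm g (p * q) = rm g p * rm g q :=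
  map_mul _ p q

theorem pm_mul (p q : Polynomial ℝ) : pm n (p * q) = pm n p * pm n q := map_mul _ p q

/-- Entrywise differentiation. -/
noncomputable def dm (e : Ix n) (A : Matrix (Fin n) (Fin n) (MvPolynomial (Ix n) ℝ)) :
    Matrix (Fin n) (Fin n) (MvPolynomial (Ix n) ℝ) :=
  A.map (pderiv e)

/-- The derivative of the coupling matrix in one edge. -/
noncomputable def pat (e : Ix n) : Matrix (Fin n) (Fin n) (MvPolynomial (Ix n) ℝ) :=
  Matrix.single e.1 e.2 (MvPolynomial.C (√(2 * n))⁻¹) + Matrix.single e.2 e.1 (MvPolynomial.C (√(2 * n))⁻¹)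

theorem dm_mul (e : Ix n) (A B : Matrix (Fin n) (Fin n) (MvPolynomial (Ix n) ℝ)) :
    dm e (A * B) = dm e A * B + A * dm e B := by
  ext a b : 1
  simp only [dm, Matrix.map_apply, Matrix.mul_apply, map_sum, Matrix.add_apply, pderiv_mul,
    ← sum_add_distrib]

theorem dm_pmat (e : Ix n) : dm e (pmat n) = pat e := by
  classical
  ext a b : 1
  obtain ⟨u, v⟩ := e
  simp only [dm, Matrix.map_apply, pmat, pat, Matrix.add_apply, Matrix.single_apply, Matrix.of_apply,
    pderiv_C_mul, map_add, pderiv_X, Pi.single_apply, Prod.ext_iff, mul_add, mul_ite, mul_one, mul_zero]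
  simp only [eq_comm (a := u), eq_comm (a := v), and_comm]

theorem dm_one (e : Ix n) : dm e 1 = 0 := by
  ext a b : 1
  simp only [dm, Matrix.map_apply, Matrix.one_apply]
  split_ifs <;> simp

theorem trace_pow_dm (e : Ix n) : ∀ k r : ℕ, trace (pmat n ^ r * dm e (pmat n ^ k))
    = k • trace (pmat n ^ (r + k - 1) * pat e)
  | 0, r => by simp [dm_one]
  | k + 1, r => by
    rw [pow_succ', dm_mul, dm_pmat, Matrix.mul_add, trace_add, ← Matrix.mul_assoc _ (pat e),
      trace_mul_comm _ (pmat n ^ k), ← Matrix.mul_assoc, ← pow_add, ← Matrix.mul_assoc, ← pow_succ,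
      trace_pow_dm e k (r + 1), succ_nsmul', show k + r = r + (k + 1) - 1 by omega,
      show r + 1 + k - 1 = r + (k + 1) - 1 by omega]

/-- The derivative of the trace of a polynomial is the derivative of the polynomial against the edge. -/
theorem pderiv_trace (e : Ix n) (P : Polynomial ℝ) :
    pderiv e (trace (pm n P)) = trace (pm n (Polynomial.derivative P) * pat e) := by
  induction P using Polynomial.induction_on' with
  | add p q hp hq =>
    simp only [pm, map_add, trace_add, Matrix.add_mul] at hp hq ⊢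
    rw [hp, hq]
  | monomial k r =>
    have h := trace_pow_dm e k 0
    simp only [pow_zero, Matrix.one_mul, zero_add] at h
    have h' : pderiv e (trace (pmat n ^ k)) = trace (dm e (pmat n ^ k)) := by
      simp [trace, dm]
    simp only [pm, Polynomial.derivative_monomial, Polynomial.aeval_monomial, ← Algebra.smul_def,
      trace_smul, Matrix.smul_mul, Derivation.map_smul, h', h]
    rw [← Nat.cast_smul_eq_nsmul ℝ, smul_smul]

/-- An antiderivative. -/
noncomputable def anti (p : Polynomial ℝ) : Polynomial ℝ :=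
  p.sum fun k c => Polynomial.monomial (k + 1) (c / (k + 1))

theorem derivative_anti (p : Polynomial ℝ) : Polynomial.derivative (anti p) = p := by
  conv_rhs => rw [← p.sum_monomial_eq]
  simp only [anti, Polynomial.sum, map_sum, Polynomial.derivative_monomial, Nat.add_sub_cancel]
  refine sum_congr rfl fun k _ => ?_
  congr 1
  push_cast
  field_simp

/-- The test function: the trace of an antiderivative. -/
noncomputable def test (n : ℕ) (p : Polynomial ℝ) : MvPolynomial (Ix n) ℝ := trace (pm n (anti p))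

theorem pderiv_test (e : Ix n) (p : Polynomial ℝ) : pderiv e (test n p)
    = MvPolynomial.C (√(2 * n))⁻¹ * (pm n p e.1 e.2 + pm n p e.2 e.1) := by
  rw [test, pderiv_trace, derivative_anti, pat, Matrix.mul_add, trace_add, Matrix.trace_mul_single,
    Matrix.trace_mul_single]
  simp
  ring

theorem dm_S (e : Ix n) : ∀ m : ℕ, dm e (pm n (S ℝ m))
    = ∑ i ∈ range m, pm n (S ℝ i) * pat e * pm n (S ℝ ((m - 1 - i : ℕ) : ℤ))
  | 0 => by simp [pm, dm_one]
  | 1 => by simp [pm, dm_pmat]
  | m + 2 => by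
    have hS : ∀ i : ℕ, pm n (S ℝ ((i + 2 : ℕ) : ℤ))
        = pmat n * pm n (S ℝ ((i + 1 : ℕ) : ℤ)) - pm n (S ℝ (i : ℤ)) := fun i => by
      simp only [pm, Nat.cast_add, Nat.cast_ofNat, Nat.cast_one, Polynomial.Chebyshev.S_add_two,
        map_sub, map_mul, Polynomial.aeval_X]
    have h1 : pm n (S ℝ ((1 : ℕ) : ℤ)) = pmat n := by simp [pm]
    have h0 : pm n (S ℝ ((0 : ℕ) : ℤ)) = 1 := by simp [pm]
    rw [hS, show ∀ A B, dm e (A - B) = dm e A - dm e B from fun A B => by ext a b : 1; simp [dm], dm_mul,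
      dm_pmat, dm_S e (m + 1), dm_S e m, mul_sum]
    conv_rhs => rw [sum_range_succ']
    rw [h0, Matrix.one_mul]
    have e1 : ∀ i ∈ range m, pmat n * (pm n (S ℝ ((i + 1 : ℕ) : ℤ)) * pat e
          * pm n (S ℝ (((m + 1 - 1 - (i + 1) : ℕ)) : ℤ)))
        = pm n (S ℝ ((i + 1 + 1 : ℕ) : ℤ)) * pat e * pm n (S ℝ (((m + 2 - 1 - (i + 1 + 1) : ℕ)) : ℤ))
          + pm n (S ℝ (i : ℤ)) * pat e * pm n (S ℝ (((m - 1 - i : ℕ)) : ℤ)) := fun i hi => by
      have := mem_range.1 hi
      rw [show i + 1 + 1 = i + 2 from rfl, hS, show m + 1 - 1 - (i + 1) = m - 1 - i by omega,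
        show m + 2 - 1 - (i + 2) = m - 1 - i by omega]
      simp only [Matrix.sub_mul, Matrix.mul_assoc]
      abel
    rw [sum_range_succ' _ m, sum_congr rfl e1, sum_add_distrib, sum_range_succ' _ m, h0, h1]
    simp only [Matrix.one_mul, zero_add, Nat.sub_zero, show m + 2 - 1 = m + 1 by omega,
      show m + 1 - 1 = m by omega]
    rw [← Matrix.mul_assoc (pmat n) (pat e)]
    abel

/-- The test polynomial with coefficients `a` in the basis `S 0, …, S (J - 1)`. -/
noncomputable def lead (J : ℕ) (a : ℕ → ℝ) : Polynomial ℝ :=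
  ∑ m ∈ range J, Polynomial.C (a m) * S ℝ (m : ℤ)

/-- The kernel of the Hessian. -/
noncomputable def hker (J : ℕ) (a : ℕ → ℝ) (g : Ix n → ℝ) (p q u v : Fin n) : ℝ :=
  ∑ m ∈ range J, a m * ∑ i ∈ range m, rm g (S ℝ (i : ℤ)) p u * rm g (S ℝ ((m - 1 - i : ℕ) : ℤ)) v q

theorem eval_grad (g : Ix n → ℝ) (e : Ix n) (p : Polynomial ℝ) :
    MvPolynomial.eval g (pderiv e (test n p)) = 2 * (√(2 * n))⁻¹ * rm g p e.1 e.2 := by
  rw [pderiv_test]
  simp only [MvPolynomial.eval_mul, MvPolynomial.eval_C, MvPolynomial.eval_add, eval_pm,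
    rm_comm g p e.2]
  ring

theorem hker_swap (g : Ix n → ℝ) (J : ℕ) (a : ℕ → ℝ) (p q u v : Fin n) :
    hker J a g q p v u = hker J a g p q u v := by
  refine sum_congr rfl fun m _ => congrArg (a m * ·) ?_
  rw [← sum_range_reflect]
  refine sum_congr rfl fun i hi => ?_
  have hi' := mem_range.1 hi
  rw [show m - 1 - (m - 1 - i) = i by omega, rm_comm g _ q v, rm_comm g _ u p, mul_comm]

theorem eval_hess (g : Ix n → ℝ) (e f : Ix n) (J : ℕ) (a : ℕ → ℝ) :
    MvPolynomial.eval g (pderiv f (pderiv e (test n (lead J a))))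
      = (√(2 * n))⁻¹ * (√(2 * n))⁻¹ * (hker J a g e.1 e.2 f.1 f.2 + hker J a g e.1 e.2 f.2 f.1
        + hker J a g e.2 e.1 f.1 f.2 + hker J a g e.2 e.1 f.2 f.1) := by
  have h : ∀ p q, MvPolynomial.eval g (pderiv f (pm n (lead J a) p q))
      = (√(2 * n))⁻¹ * (hker J a g p q f.1 f.2 + hker J a g p q f.2 f.1) := fun p q => by
    have e0 : pm n (lead J a) p q = ∑ m ∈ range J, MvPolynomial.C (a m) * pm n (S ℝ (m : ℤ)) p q := by
      simp [lead, pm, Matrix.sum_apply, Algebra.algebraMap_eq_smul_one, MvPolynomial.smul_eq_C_mul]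
    have e1 : ∀ m : ℕ, MvPolynomial.eval g (pderiv f (pm n (S ℝ (m : ℤ)) p q))
        = ∑ i ∈ range m, (√(2 * n))⁻¹ * (rm g (S ℝ (i : ℤ)) p f.1 * rm g (S ℝ ((m - 1 - i : ℕ) : ℤ)) f.2 q
          + rm g (S ℝ (i : ℤ)) p f.2 * rm g (S ℝ ((m - 1 - i : ℕ) : ℤ)) f.1 q) := fun m => by
      have := congrArg (fun A => MvPolynomial.eval g (A p q)) (dm_S f m)
      simp only [dm, Matrix.map_apply, Matrix.sum_apply, map_sum] at this
      rw [this]
      refine sum_congr rfl fun i _ => ?_
      simp [pat, Matrix.mul_add, Matrix.mul_apply, Matrix.single_apply, eval_pm,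
        ite_and, mul_ite, apply_ite (MvPolynomial.eval g)]
      simp only [add_mul, ite_mul, zero_mul, sum_add_distrib, sum_ite_eq, mem_univ, if_true]
      ring
    simp only [e0, map_sum, pderiv_C_mul, MvPolynomial.eval_mul, MvPolynomial.eval_C, e1, hker,
      ← sum_add_distrib, mul_sum]
    exact sum_congr rfl fun m _ => sum_congr rfl fun i _ => by ring
  rw [pderiv_test, pderiv_C_mul, map_add]
  simp only [MvPolynomial.eval_mul, MvPolynomial.eval_C, MvPolynomial.eval_add, h]
  ring

end Vale.Agent.P146.Proj
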